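import Vale.Agent.P359.Rep.Coup
import Vale.Agent.P359.Haar.Bound
import Vale.Agent.P359.Haar.Coherent

/-!
# P359: bounds from coherent states
-/

noncomputable section

namespace P359.CAR

open Finset
open scoped ComplexConjugate

variable {Q : ℕ} {V : Type*} [NormedAddCommGroup V] [InnerProductSpace ℂ V] (A : CAR Q V)

/-- A combination of annihilators has norm at most the norm of its coefficients. -/
lemma smeared_norm_sq_le (z : ℕ → ℂ) (x : V) :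
    ‖∑ k ∈ range (Q + 1), z k • A.c k x‖ ^ 2
      ≤ (∑ k ∈ range (Q + 1), ‖z k‖ ^ 2) * ‖x‖ ^ 2 := by
  set T := ∑ k ∈ range (Q + 1), z k • A.c k x
  set T' := ∑ k ∈ range (Q + 1), conj (z k) • A.d k x
  have hd : ∀ k, k ≤ Q → ∀ y w : V, inner ℂ (A.d k y) w = inner ℂ y (A.c k w) := by
    intro k hk y w
    rw [← inner_conj_symm, ← A.adj k hk, inner_conj_symm]
  have key : inner ℂ T T + inner ℂ T' T'
      = (∑ k ∈ range (Q + 1), (conj (z k) * z k)) * inner ℂ x x := by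
    have e1 : inner ℂ T T = ∑ i ∈ range (Q + 1), ∑ k ∈ range (Q + 1),
        conj (z i) * z k * inner ℂ x (A.d i (A.c k x)) := by
      rw [sum_inner]
      refine sum_congr rfl fun i hi => ?_
      rw [inner_sum]
      refine sum_congr rfl fun k _ => ?_
      rw [inner_smul_left, inner_smul_right, A.adj i (by simpa [Nat.lt_succ_iff] using hi), mul_assoc]
    have e2 : inner ℂ T' T' = ∑ i ∈ range (Q + 1), ∑ k ∈ range (Q + 1),
        conj (z i) * z k * inner ℂ x (A.c k (A.d i x)) := by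
      rw [sum_inner, sum_comm]
      refine sum_congr rfl fun k hk => ?_
      rw [inner_sum]
      refine sum_congr rfl fun i _ => ?_
      rw [inner_smul_left, inner_smul_right, hd k (by simpa [Nat.lt_succ_iff] using hk),
        Complex.conj_conj]
      ring
    rw [e1, e2, ← sum_add_distrib, sum_mul]
    refine sum_congr rfl fun i hi => ?_
    rw [← sum_add_distrib, sum_eq_single i]
    · rw [← mul_add, ← inner_add_right, add_comm,
        A.mixed i (by simpa [Nat.lt_succ_iff] using hi) i (by simpa [Nat.lt_succ_iff] using hi),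
        if_pos rfl]
    · intro k hk hne
      rw [← mul_add, ← inner_add_right, add_comm,
        A.mixed k (by simpa [Nat.lt_succ_iff] using hk) i (by simpa [Nat.lt_succ_iff] using hi),
        if_neg hne]
      simp
    · exact fun h => absurd hi h
  have e : (((‖T‖ ^ 2 + ‖T'‖ ^ 2 : ℝ)) : ℂ)
      = (((∑ k ∈ range (Q + 1), ‖z k‖ ^ 2) * ‖x‖ ^ 2 : ℝ) : ℂ) := by
    simp only [inner_self_eq_norm_sq_to_K, Complex.conj_mul'] at key
    push_cast
    simpa using key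
  have e' : ‖T‖ ^ 2 + ‖T'‖ ^ 2 = (∑ k ∈ range (Q + 1), ‖z k‖ ^ 2) * ‖x‖ ^ 2 := by exact_mod_cast e
  linarith [sq_nonneg ‖T'‖]

/-- Any vectors, any channel. -/
theorem coup_norm_sq_le {a L : ℕ} (hLa : L ≤ a) (hLQ : L ≤ Q) (φ : ℕ → V) :
    ∑ J ∈ range (a + Q - 2 * L + 1),
        ‖∑ M ∈ range (a + 1), ∑ k ∈ range (Q + 1), (coup a Q L J M k : ℂ) • A.c k (φ M)‖ ^ 2 ≤
      ((L : ℝ) + 1) * ((a + Q - 2 * L + 1 : ℕ) : ℝ) / ((a : ℝ) + 1) *
        ∑ M ∈ range (a + 1), ‖φ M‖ ^ 2 := by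
  have h := Haar.row_bound (a := a) (b := Q) (L := L) (d := a + Q - 2 * L) hLa hLQ (by omega)
    (K := coup a Q L) (fun J M k => Haar.coup_supp) (Haar.coefB_sq hLa hLQ).le
    (fun t ht M hM k hk => Haar.coherent_row hLa hLQ ht hM hk) A.c A.smeared_norm_sq_le φ
  push_cast
  exact h

lemma Phi1_eq_zero {L : ℕ} (h : ¬ (L ≤ 2 * Q - 2 ∧ L ≤ Q)) (J : ℕ) (ψ : V) :
    A.Phi1 L J ψ = 0 := by
  refine sum_eq_zero fun M _ => sum_eq_zero fun k _ => ?_
  rw [coup, if_neg (fun hh => h ⟨hh.1, hh.2.1⟩)]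
  simp

lemma hEn_nonneg' (ψ : V) : 0 ≤ A.hEn ψ := sum_nonneg fun _ _ => sq_nonneg _

/-- The sharp form of `X_le` for an admissible channel. -/
lemma X_le_channel (hQ : 2 ≤ Q) {L : ℕ} (hL : L ≤ 2 * Q - 2) (hLQ : L ≤ Q) (ψ : V) :
    A.X L ψ ≤ ((L : ℝ) + 1) * ((3 * Q - 1 - 2 * L : ℕ) : ℝ) / (2 * Q - 1 : ℝ) * A.hEn ψ := by
  have h := A.coup_norm_sq_le (a := 2 * Q - 2) hL hLQ (fun M => A.B M ψ)
  rw [show 2 * Q - 2 + Q - 2 * L + 1 = 3 * Q - 1 - 2 * L by omega,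
    show 2 * Q - 2 + 1 = 2 * Q - 1 by omega] at h
  have e : ((2 * Q - 2 : ℕ) : ℝ) + 1 = 2 * Q - 1 := by
    rw [Nat.cast_sub (by omega)]; push_cast; ring
  rw [e] at h
  exact h

theorem X_le (hQ : 2 ≤ Q) (L : ℕ) (ψ : V) :
    A.X L ψ ≤ ((L : ℝ) + 1) * (3 * Q - 1 : ℝ) / (2 * Q - 1 : ℝ) * A.hEn ψ := by
  have hQR : (2 : ℝ) ≤ Q := by exact_mod_cast hQ
  have hh := A.hEn_nonneg' ψ
  have hc : (0 : ℝ) < 2 * Q - 1 := by linarith
  have hp : (0 : ℝ) ≤ 3 * Q - 1 := by linarith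
  by_cases h : L ≤ 2 * Q - 2 ∧ L ≤ Q
  · refine (A.X_le_channel hQ h.1 h.2 ψ).trans (mul_le_mul_of_nonneg_right ?_ hh)
    refine div_le_div_of_nonneg_right (mul_le_mul_of_nonneg_left ?_ (by positivity)) hc.le
    have : ((3 * Q - 1 - 2 * L : ℕ) : ℝ) ≤ ((3 * Q - 1 : ℕ) : ℝ) := by
      exact_mod_cast Nat.sub_le _ _
    rw [Nat.cast_sub (by omega : 1 ≤ 3 * Q)] at this
    push_cast at this
    exact this
  · simp only [X, A.Phi1_eq_zero h, norm_zero, ne_eq, OfNat.ofNat_ne_zero, not_false_eq_true,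
      zero_pow, sum_const_zero]
    positivity

theorem Y_le (hQ : 2 ≤ Q) (L l : ℕ) (ψ : V) :
    A.Y L l ψ ≤ ((L : ℝ) + 1) * ((l : ℝ) + 1) * (4 * Q - 1 : ℝ) / (2 * Q - 1 : ℝ) * A.hEn ψ := by
  have hQR : (2 : ℝ) ≤ Q := by exact_mod_cast hQ
  have hh := A.hEn_nonneg' ψ
  have hc : (0 : ℝ) < 2 * Q - 1 := by linarith
  have hp : (0 : ℝ) ≤ 4 * Q - 1 := by linarith
  have zero : (∀ U, A.Phi2 L l U ψ = 0) →
      A.Y L l ψ ≤ ((L : ℝ) + 1) * ((l : ℝ) + 1) * (4 * Q - 1 : ℝ) / (2 * Q - 1 : ℝ) * A.hEn ψ := by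
    intro hz
    simp only [Y, hz, norm_zero, ne_eq, OfNat.ofNat_ne_zero, not_false_eq_true, zero_pow,
      sum_const_zero]
    positivity
  by_cases h : L ≤ 2 * Q - 2 ∧ L ≤ Q
  swap
  · exact zero fun U => sum_eq_zero fun J _ => sum_eq_zero fun k _ => by
      rw [A.Phi1_eq_zero h, map_zero, smul_zero]
  by_cases h' : l ≤ 3 * Q - 2 - 2 * L ∧ l ≤ Q
  swap
  · exact zero fun U => sum_eq_zero fun J _ => sum_eq_zero fun k _ => by
      rw [coup, if_neg (fun hh => h' ⟨hh.1, hh.2.1⟩)]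
      simp
  set a := 3 * Q - 2 - 2 * L
  have h2 := A.coup_norm_sq_le (a := a) h'.1 h'.2 (fun J => A.Phi1 L J ψ)
  rw [show a + Q - 2 * l + 1 = 4 * Q - 1 - 2 * (L + l) by omega] at h2
  have ea : a + 1 = 3 * Q - 1 - 2 * L := by omega
  have eY : A.Y L l ψ = ∑ U ∈ range (4 * Q - 1 - 2 * (L + l)),
      ‖∑ J ∈ range (a + 1), ∑ k ∈ range (Q + 1),
        (coup a Q l U J k : ℂ) • A.c k (A.Phi1 L J ψ)‖ ^ 2 := by
    rw [ea]; rfl
  have eX : ∑ J ∈ range (a + 1), ‖A.Phi1 L J ψ‖ ^ 2 = A.X L ψ := by rw [ea]; rfl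
  rw [← eY, eX] at h2
  have hX := A.X_le_channel hQ h.1 h.2 ψ
  have eaR : ((3 * Q - 1 - 2 * L : ℕ) : ℝ) = (a : ℝ) + 1 := by exact_mod_cast ea.symm
  rw [eaR] at hX
  have hu : ((4 * Q - 1 - 2 * (L + l) : ℕ) : ℝ) ≤ 4 * Q - 1 := by
    have : ((4 * Q - 1 - 2 * (L + l) : ℕ) : ℝ) ≤ ((4 * Q - 1 : ℕ) : ℝ) := by
      exact_mod_cast Nat.sub_le _ _
    rw [Nat.cast_sub (by omega : 1 ≤ 4 * Q)] at this
    push_cast at this
    exact this
  refine h2.trans ((mul_le_mul_of_nonneg_left hX (by positivity)).trans ?_)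
  rw [← mul_assoc]
  refine mul_le_mul_of_nonneg_right ?_ hh
  rw [div_mul_div_comm, div_le_div_iff₀ (by positivity) hc]
  have := mul_le_mul_of_nonneg_left hu
    (by positivity : (0 : ℝ) ≤ ((L : ℝ) + 1) * ((l : ℝ) + 1) * ((a : ℝ) + 1) * (2 * Q - 1 : ℝ))
  linarith

end P359.CAR

end
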