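import Vale.Agent.P359.Bridge.Fock
import Vale.Agent.P359.Bridge.State
import Vale.Agent.P359.Bridge.Proj
import Vale.Agent.P359.Pairs.Count

/-!
# P359: from the anticommutation relations to `N` fermions

An inequality `d * hEn ≤ ‖ham‖²` in every family of anticommutation relations gives
`d * H ≤ H * H` on fermionic wave functions of every number of particles.
-/

noncomputable section

namespace P359

open Finset Matrix Vale.Agent.P359.Pairs

variable {Q n : ℕ} {V : Type*} [NormedAddCommGroup V] [InnerProductSpace ℂ V] {A : CAR Q V} {Ω : V}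

/-- Contraction of the first two particles with a pair row. -/
def gvec (M : ℕ) (v : (Fin (n + 2) → Fin (Q + 1)) → ℂ) : (Fin n → Fin (Q + 1)) → ℂ :=
  ∑ a : Fin (Q + 1), ∑ b : Fin (Q + 1), (beta Q M (a : ℕ) (b : ℕ) : ℂ) • slice (slice v a) b

/-- A pair row times a wave function of the other particles. -/
def pvec (M : ℕ) (g : (Fin n → Fin (Q + 1)) → ℂ) : (Fin (n + 2) → Fin (Q + 1)) → ℂ :=
  fun x => (beta Q M (x 0 : ℕ) (x 1 : ℕ) : ℂ) * g (Fin.tail (Fin.tail x))

theorem B_amb (hΩ : IsVac A Ω) (M : ℕ) {v : (Fin (n + 2) → Fin (Q + 1)) → ℂ} (hv : IsAntisym v) :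
    A.B M (amb A Ω v) =
      (-(((n + 2 : ℕ) : ℂ) * ((n + 1 : ℕ) : ℂ) / (Real.sqrt 2 : ℂ))) • amb A Ω (gvec M v) := by
  rw [CAR.B, sum_range, gvec, amb_sum, Finset.smul_sum]
  refine sum_congr rfl fun a _ => ?_
  rw [sum_range, amb_sum, Finset.smul_sum]
  refine sum_congr rfl fun b _ => ?_
  rw [c_amb hΩ hv, map_smul, c_amb hΩ (antisym_slice hv b), antisym_swap_two hv b a,
    ← neg_one_smul ℂ (slice (slice v a) b), amb_smul, amb_smul]
  simp only [smul_smul]
  congr 1
  push_cast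
  ring

theorem Bd_amb (M : ℕ) (g : (Fin n → Fin (Q + 1)) → ℂ) :
    A.Bd M (amb A Ω g) = (-(1 / (Real.sqrt 2 : ℂ))) • amb A Ω (pvec M g) := by
  rw [CAR.Bd, amb_succ (pvec M g), Finset.smul_sum, sum_range]
  simp only [sum_range]
  rw [sum_comm]
  refine sum_congr rfl fun b _ => ?_
  rw [amb_succ, map_sum, Finset.smul_sum]
  refine sum_congr rfl fun a _ => ?_
  have e : slice (slice (pvec M g) b) a = (beta Q M (b : ℕ) (a : ℕ) : ℂ) • g := by
    funext z
    simp [slice, pvec, Fin.cons_one]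
  rw [e, amb_smul, map_smul, map_smul, smul_smul, beta_swap Q M (a : ℕ) (b : ℕ)]
  congr 1
  push_cast
  ring

theorem pairMat_first (v : (Fin (n + 2) → Fin (Q + 1)) → ℂ) :
    pairMat (spinProj Q) 0 1 *ᵥ v = ∑ M ∈ range (2 * Q - 1), pvec M (gvec M v) := by
  funext x
  rw [mulVec, dotProduct, Finset.sum_apply]
  simp only [pairMat_apply, ite_mul, zero_mul]
  rw [sum_agree (show (0 : Fin (n + 2)) ≠ 1 by simp), Fintype.sum_prod_type]
  simp only [pvec, gvec, Finset.sum_apply, Pi.smul_apply, smul_eq_mul, Finset.mul_sum]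
  rw [sum_comm (s := range (2 * Q - 1))]
  refine sum_congr rfl fun a _ => ?_
  rw [sum_comm (s := range (2 * Q - 1))]
  refine sum_congr rfl fun b _ => ?_
  rw [put_left (show (0 : Fin (n + 2)) ≠ 1 by simp), put_right, spinProj_eq, Finset.sum_mul]
  refine sum_congr rfl fun M _ => ?_
  have e : put 0 1 x (a, b) = Fin.cons a (Fin.cons b (Fin.tail (Fin.tail x))) := by
    funext k
    cases k using Fin.cases with
    | zero => rw [put_left (by simp), Fin.cons_zero]
    | succ k =>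
      cases k using Fin.cases with
      | zero => rw [Fin.cons_succ, Fin.cons_zero, Fin.succ_zero_eq_one, put_right]
      | succ k =>
        rw [put_other (Fin.succ_ne_zero _) (show k.succ.succ ≠ (1 : Fin (n + 2)) from
          fun h => Fin.succ_ne_zero k (Fin.succ_injective _ h))]
        simp [Fin.tail]
  rw [e]
  simp only [slice]
  push_cast
  ring

theorem ham_amb (hΩ : IsVac A Ω) {v : (Fin (n + 2) → Fin (Q + 1)) → ℂ} (hv : IsAntisym v) :
    A.ham (amb A Ω v) = amb A Ω (ham (spinProj Q) (n + 2) *ᵥ v) := by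
  have hp : ∀ p ∈ (Finset.univ : Finset (Pair (n + 2))),
      amb A Ω (pairOp (spinProj Q) p *ᵥ v) = amb A Ω (pairMat (spinProj Q) 0 1 *ᵥ v) :=
    fun p _ => amb_pair (spinProj Q) hv p.2.ne (by simp)
  rw [Vale.Agent.P359.Pairs.ham, Matrix.sum_mulVec, amb_sum, sum_congr rfl hp,
    sum_const, ← Nat.cast_smul_eq_nsmul ℂ, pairMat_first, amb_sum, Finset.smul_sum, CAR.ham]
  refine sum_congr rfl fun M _ => ?_
  have hBd : ∀ (a : ℂ) (y : V), A.Bd M (a • y) = a • A.Bd M y := fun a y => by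
    simp only [CAR.Bd, map_smul, Finset.smul_sum, smul_comm a]
  rw [B_amb hΩ M hv, hBd, Bd_amb, smul_smul]
  congr 1
  have h2 : (Real.sqrt 2 : ℂ) * (Real.sqrt 2 : ℂ) = 2 := by
    rw [← Complex.ofReal_mul, Real.mul_self_sqrt (by norm_num)]; norm_num
  have hc := congrArg (Nat.cast (R := ℂ)) (two_mul_card_pair (N := n + 2))
  rw [Nat.cast_mul, Nat.cast_mul, show n + 2 - 1 = n + 1 by omega] at hc
  rw [Finset.card_univ, neg_mul_neg, div_mul_div_comm, mul_one, h2, div_eq_iff (by norm_num)]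
  push_cast at hc ⊢
  linear_combination -hc

theorem hEn_eq_inner (A : CAR Q V) (x : V) : A.hEn x = (inner ℂ x (A.ham x)).re := by
  rw [CAR.hEn, CAR.ham, inner_sum, Complex.re_sum]
  refine sum_congr rfl fun M _ => ?_
  have hadj : ∀ y, inner ℂ x (A.Bd M y) = inner ℂ (A.B M x) y := fun y => by
    simp only [CAR.B, CAR.Bd, inner_sum, sum_inner, inner_smul_left, inner_smul_right,
      Complex.conj_ofReal]
    refine sum_congr rfl fun j hj => sum_congr rfl fun k hk => ?_
    rw [A.adj' (Nat.le_of_lt_succ (mem_range.1 hk)), A.adj' (Nat.le_of_lt_succ (mem_range.1 hj))]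
  rw [hadj, inner_self_eq_norm_sq_to_K]
  norm_cast

/-- The bridge. -/
theorem bridge {d : ℝ} {Q0 : ℕ}
    (h : ∀ Q, Q0 ≤ Q → ∀ (V : Type) [NormedAddCommGroup V] [InnerProductSpace ℂ V]
      (A : CAR Q V) (x : V), d * A.hEn x ≤ ‖A.ham x‖ ^ 2) :
    ∀ Q, Q0 ≤ Q → ∀ (N : ℕ) (v : (Fin N → Fin (Q + 1)) → ℂ), IsAntisym v →
      d * (qform (ham (spinProj Q) N) v).re ≤
        (qform (ham (spinProj Q) N * ham (spinProj Q) N) v).re := by
  intro Q hQ N v hv
  by_cases hN : N < 2
  · have : IsEmpty (Pair N) := ⟨fun p => by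
      have h1 : (p.1.1 : ℕ) < p.1.2 := p.2
      have h2 := p.1.2.is_lt
      omega⟩
    simp [qform, Vale.Agent.P359.Pairs.ham]
  obtain ⟨n, rfl⟩ : ∃ n, N = n + 2 := ⟨N - 2, by omega⟩
  have hΩ : IsVac (Fock.car Q) (Fock.vac Q) := ⟨fun i hi => Fock.car_vac hi, Fock.inner_vac⟩
  have hP := spinProj_isPairProj Q
  set H := ham (spinProj Q) (n + 2) with hH
  have hHv : IsAntisym (H *ᵥ v) := ham_antisym hP hv
  have key := h Q hQ (Fock Q) (Fock.car Q) (amb (Fock.car Q) (Fock.vac Q) v)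
  rw [hEn_eq_inner, @norm_sq_eq_re_inner ℂ, ham_amb hΩ hv, inner_amb hΩ hv, inner_amb hΩ hHv,
    RCLike.re_to_complex] at key
  have hsq : star (H *ᵥ v) ⬝ᵥ (H *ᵥ v) = qform (H * H) v := by
    rw [qform, Matrix.star_mulVec, ← dotProduct_mulVec, (ham_hermitian hP).eq, mulVec_mulVec]
  rw [hsq] at key
  simp only [← Complex.ofReal_natCast, Complex.re_ofReal_mul] at key
  rw [mul_left_comm] at key
  exact le_of_mul_le_mul_left key (Nat.cast_pos.2 (Nat.factorial_pos _))

end P359
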