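import Vale.Agent.P359.Bridge
import Vale.Agent.P359.Laughlin.Kernel

/-!
# P359: the gap above the Laughlin state

An inequality `d * hEn ≤ ‖ham‖²` in the anticommutation relations, with `0 < d`, gives
`δ (1 - P_L) ≤ H` on fermions at the flux `Q = 3 (N - 1)`, uniformly in `N`.
-/

noncomputable section

namespace P359

open Finset Matrix Vale.Agent.P359.Pairs Vale.Agent.P359.Laughlin
open scoped ComplexOrder

/-- A gap off the zero states is a gap off the line they form. -/
theorem gap_off_line {N : ℕ} {ι : Type*} [Fintype ι] [DecidableEq ι]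
    {H : Matrix (Fin N → ι) (Fin N → ι) ℂ} (hH : H.IsHermitian) (hpos : H.PosSemidef)
    (hinv : ∀ v, IsAntisym v → IsAntisym (H *ᵥ v)) {d : ℝ} (hd : 0 ≤ d)
    (h : ∀ v, IsAntisym v → d * (qform H v).re ≤ (qform (H * H) v).re)
    {L : (Fin N → ι) → ℂ} (hLa : IsAntisym L) (hL0 : L ≠ 0) (hHL : H *ᵥ L = 0)
    (hker : ∀ u, IsAntisym u → H *ᵥ u = 0 → ∃ a : ℂ, u = a • L)
    {v : (Fin N → ι) → ℂ} (hv : IsAntisym v) :
    d * ((star v ⬝ᵥ v).re - Complex.normSq (star L ⬝ᵥ v) / (star L ⬝ᵥ L).re) ≤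
      (qform H v).re := by
  set z := star L ⬝ᵥ L with hz
  have hz0 : z ≠ 0 := by
    exact fun h0 => hL0 (dotProduct_star_self_eq_zero.1 h0)
  have hzc : star z = z := by rw [hz, ← star_dotProduct_star, star_star]
  set s := star L ⬝ᵥ v with hs
  set w := v + (-(s / z)) • L with hw
  have hwa : IsAntisym w := IsAntisym.add hv (IsAntisym.smul hLa _)
  have hLw : star L ⬝ᵥ w = 0 := by
    rw [hw, dotProduct_add, dotProduct_smul, ← hs, ← hz, smul_eq_mul]
    field_simp
    ring
  have hperp : ∀ u, IsAntisym u → H *ᵥ u = 0 → star u ⬝ᵥ w = 0 := by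
    intro u hu h0
    obtain ⟨a, rfl⟩ := hker u hu h0
    rw [star_smul, smul_dotProduct, hLw, smul_zero]
  have key := gap_of_sq_ge hH hpos hinv hd h w hwa hperp
  have hvL : star v ⬝ᵥ L = star s := by rw [hs, ← star_dotProduct_star, star_star]
  have e1 : star w ⬝ᵥ w = star v ⬝ᵥ v - star s * s / z := by
    rw [hw, star_add, star_smul, add_dotProduct, dotProduct_add, dotProduct_add, smul_dotProduct,
      smul_dotProduct, dotProduct_smul, dotProduct_smul, ← hs, ← hz, hvL]
    simp only [smul_eq_mul, star_neg, star_div₀, hzc]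
    field_simp
    ring
  have e2 : qform H w = qform H v := by
    have hLH : star L ᵥ* H = 0 := by
      rw [← hH.eq, ← Matrix.star_mulVec, hHL, star_zero]
    rw [qform, qform, hw, Matrix.mulVec_add, Matrix.mulVec_smul, hHL, smul_zero, add_zero,
      star_add, add_dotProduct, star_smul, smul_dotProduct, dotProduct_mulVec (star L) H v, hLH,
      zero_dotProduct, smul_zero, add_zero]
  rw [e1, e2] at key
  have hzr : z = (z.re : ℂ) := (Complex.conj_eq_iff_re.1 hzc).symm
  have e3 : (star s * s / z).re = Complex.normSq s / z.re := by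
    rw [hzr, Complex.star_def, ← Complex.normSq_eq_conj_mul_self, ← Complex.ofReal_div,
      Complex.ofReal_re, Complex.ofReal_re]
  rw [Complex.sub_re, e3] at key
  exact key

/-- The gap of the Laughlin Hamiltonian from the bound in the anticommutation relations. -/
theorem gap_of_car {d : ℝ} {Q0 : ℕ} (hd : 0 < d)
    (h : ∀ Q, Q0 ≤ Q → ∀ (V : Type) [NormedAddCommGroup V] [InnerProductSpace ℂ V]
      (A : CAR Q V) (x : V), d * A.hEn x ≤ ‖A.ham x‖ ^ 2) :
    ∃ δ : ℝ, 0 < δ ∧ ∃ N0 : ℕ, ∀ N : ℕ, N0 ≤ N →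
      (IsAntisym (laughlin N (3 * (N - 1))) ∧ laughlin N (3 * (N - 1)) ≠ 0 ∧
        ham (spinProj (3 * (N - 1))) N *ᵥ laughlin N (3 * (N - 1)) = 0) ∧
      ∀ v : (Fin N → Fin (3 * (N - 1) + 1)) → ℂ, IsAntisym v →
        δ * ((star v ⬝ᵥ v).re - Complex.normSq (star (laughlin N (3 * (N - 1))) ⬝ᵥ v) /
            (star (laughlin N (3 * (N - 1))) ⬝ᵥ laughlin N (3 * (N - 1))).re) ≤
          (qform (ham (spinProj (3 * (N - 1))) N) v).re :=
  ⟨d, hd, Q0 + 1, fun N hN =>
    ⟨⟨laughlin_antisym, laughlin_ne_zero le_rfl, ham_mulVec_laughlin le_rfl⟩, fun _ hv =>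
      gap_off_line (ham_hermitian (spinProj_isPairProj _)) (ham_posSemidef (spinProj_isPairProj _))
        (fun _ => ham_antisym (spinProj_isPairProj _)) hd.le
        (fun w hw => bridge h _ (by omega) N w hw) laughlin_antisym (laughlin_ne_zero le_rfl)
        (ham_mulVec_laughlin le_rfl) (fun _ hu => (zero_states_iff hu).1) hv⟩⟩

end P359
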