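import Mathlib

/-!
# P359: definitions for the certificate of the Laughlin gap

`V n` has basis `e 0, ..., e n` (`e J = sqrt (choose n J) u^(n-J) v^J`).
`coup a b L J M k` is the entry of the covariant co-isometry `V a ⊗ V b → V (a+b-2L)`.
-/

noncomputable section

namespace P359

open Finset ComplexConjugate

/-- Normalisation `N_L` of `coup`. -/
def coupN (a b L : ℕ) : ℝ :=
  ∑ i ∈ range (L + 1), (L.choose i : ℝ) ^ 2 / ((a.choose i : ℝ) * (b.choose (L - i) : ℝ))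

/-- Coefficient of `x^M y^k` in `(y - x)^L (1+x)^(a-L) (1+y)^(b-L)` (up to the global sign). -/
def coupRaw (a b L M k : ℕ) : ℝ :=
  ∑ i ∈ range (L + 1),
    if i ≤ M ∧ L ≤ k + i then
      (-1 : ℝ) ^ i * (L.choose i : ℝ) * ((a - L).choose (M - i) : ℝ)
        * ((b - L).choose (k + i - L) : ℝ)
    else 0

/-- Matrix entry `(J; M, k)` of the co-isometric intertwiner `V a ⊗ V b → V (a+b-2L)`. -/
def coup (a b L J M k : ℕ) : ℝ :=
  if L ≤ a ∧ L ≤ b ∧ M + k = J + L then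
    coupRaw a b L M k /
      Real.sqrt (((a + b - 2 * L).choose J : ℝ) * (a.choose M : ℝ) * (b.choose k : ℝ)
        * coupN a b L)
  else 0

/-- The pair projection row: `P^(1) = betaᵀ beta`. -/
def beta (Q M j k : ℕ) : ℝ := coup Q Q 1 M j k

/-- Raising operator on `V n` in matrix form: `E e_J = sqrt (J (n-J+1)) e_(J-1)`. -/
def opE (n r J : ℕ) : ℝ := if r + 1 = J ∧ J ≤ n then Real.sqrt ((J : ℝ) * ((n + 1 - J : ℕ) : ℝ)) else 0

/-- Contraction of two intertwiners over their common first factor `V s`: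
a kernel from `V c' ⊗ V b` to `V c ⊗ V b'`, where `c = s+b-2n`, `c' = s+b'-2n'`. -/
def contr (s b b' n n' J k' J' k : ℕ) : ℝ :=
  ∑ S ∈ range (s + 1), coup s b n J S k * coup s b' n' J' S k'

/-- The scalar of `contr` between the components `l` and `l'`. -/
def scal (s b b' n n' l l' : ℕ) : ℝ :=
  ∑ k' ∈ range (l + 1), ∑ k ∈ range (l' + 1),
    coup (s + b - 2 * n) b' l 0 (l - k') k' * coup (s + b' - 2 * n') b l' 0 (l' - k) k
      * contr s b b' n n' (l - k') k' (l' - k) k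

/-- `F2 Q L n`: charges `2|1`. -/
def F2 (Q L n : ℕ) : ℝ := scal (Q + 2 * n - 2) Q Q n n L L

/-- `F3`: charges `3|1`, between the channels `(L, l)` and `(L', l')`; `L - n = L' - n'`. -/
def F3 (Q L n l n' l' : ℕ) : ℝ := scal (2 * Q + 2 * n - 2 - 2 * L) Q Q n n' l l'

/-- The exchange matrix of the two single fermions in the weight-`T` sector. -/
def exch (Q T L L' : ℕ) : ℝ := F3 Q L L (T - L) L' (T - L')

/-- The pair-pair overlap in the weight-`T` sector. -/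
def piC (Q T L : ℕ) : ℝ :=
  (-1 : ℝ) ^ (L + 1) * scal Q (2 * Q - 2) Q L 1 (T - L) (T - 1)

/-- A family of canonical anticommutation relations on `V`. -/
structure CAR (Q : ℕ) (V : Type*) [NormedAddCommGroup V] [InnerProductSpace ℂ V] where
  c : ℕ → V →ₗ[ℂ] V
  d : ℕ → V →ₗ[ℂ] V
  adj : ∀ i, i ≤ Q → ∀ x y : V, inner ℂ (c i x) y = inner ℂ x (d i y)
  anti : ∀ i, i ≤ Q → ∀ j, j ≤ Q → ∀ x : V, c i (c j x) + c j (c i x) = 0
  mixed : ∀ i, i ≤ Q → ∀ j, j ≤ Q → ∀ x : V,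
    c i (d j x) + d j (c i x) = if i = j then x else 0

variable {Q : ℕ} {V : Type*} [NormedAddCommGroup V] [InnerProductSpace ℂ V] (A : CAR Q V)

namespace CAR

/-- `B_M = 2^(-1/2) ∑ beta[M;j,k] c_j c_k`. -/
def B (M : ℕ) (ψ : V) : V :=
  ∑ j ∈ range (Q + 1), ∑ k ∈ range (Q + 1),
    ((beta Q M j k / Real.sqrt 2 : ℝ) : ℂ) • A.c j (A.c k ψ)

/-- The adjoint of `B_M`. -/
def Bd (M : ℕ) (ψ : V) : V :=
  ∑ j ∈ range (Q + 1), ∑ k ∈ range (Q + 1),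
    ((beta Q M j k / Real.sqrt 2 : ℝ) : ℂ) • A.d k (A.d j ψ)

/-- The Hamiltonian `∑ B_M^* B_M`. -/
def ham (ψ : V) : V := ∑ M ∈ range (2 * Q - 1), A.Bd M (A.B M ψ)

/-- Its quadratic form. -/
def hEn (ψ : V) : ℝ := ∑ M ∈ range (2 * Q - 1), ‖A.B M ψ‖ ^ 2

/-- `∑ ‖B_M' B_M ψ‖²`. -/
def BB (ψ : V) : ℝ :=
  ∑ M ∈ range (2 * Q - 1), ∑ M' ∈ range (2 * Q - 1), ‖A.B M' (A.B M ψ)‖ ^ 2

/-- Pair plus one fermion, in channel `L`. -/
def Phi1 (L J : ℕ) (ψ : V) : V :=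
  ∑ M ∈ range (2 * Q - 1), ∑ k ∈ range (Q + 1),
    (coup (2 * Q - 2) Q L J M k : ℂ) • A.c k (A.B M ψ)

/-- Weight of channel `L`. -/
def X (L : ℕ) (ψ : V) : ℝ := ∑ J ∈ range (3 * Q - 1 - 2 * L), ‖A.Phi1 L J ψ‖ ^ 2

/-- Pair plus two fermions, in channel `(L, l)`. -/
def Phi2 (L l U : ℕ) (ψ : V) : V :=
  ∑ J ∈ range (3 * Q - 1 - 2 * L), ∑ k ∈ range (Q + 1),
    (coup (3 * Q - 2 - 2 * L) Q l U J k : ℂ) • A.c k (A.Phi1 L J ψ)

/-- Weight of channel `(L, l)`. -/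
def Y (L l : ℕ) (ψ : V) : ℝ :=
  ∑ U ∈ range (4 * Q - 1 - 2 * (L + l)), ‖A.Phi2 L l U ψ‖ ^ 2

/-- Overlap of channels `(L, T-L)` and `(L', T-L')`. -/
def ov (T L L' : ℕ) (ψ : V) : ℝ :=
  ∑ U ∈ range (4 * Q - 1 - 2 * T),
    (inner ℂ (A.Phi2 L (T - L) U ψ) (A.Phi2 L' (T - L') U ψ)).re

end CAR

end P359
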